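import Vale.Agent.P057.Rankin.Count

/-!
The recursion cost the levels and the choice of the numbers of digits.
-/

namespace Vale.Agent.P057.Rankin

open Finset Filter

/-- The exponent lost per digit on the last level. -/
noncomputable def lam (D : ℕ) : ℝ := Real.logb 2 ((D + 1).choose ((D + 1) / 2))

/-- The coefficient of the number of bits after `r` further levels. -/
noncomputable def coef (L : ℕ) (τ : ℝ) (D r : ℕ) : ℝ :=
  2 * lam L * (2 * D : ℝ) ^ r * 2 ^ (r.choose 2) / τ ^ (r + 1)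

lemma one_le_lam {D : ℕ} (hD : 1 ≤ D) : 1 ≤ lam D := by
  have h : 2 ≤ (D + 1).choose ((D + 1) / 2) := by
    have h1 := Nat.choose_le_middle 1 (D + 1)
    rw [Nat.choose_one_right] at h1
    omega
  unfold lam
  rw [Real.le_logb_iff_rpow_le (by norm_num) (by exact_mod_cast (by omega : 0 < _)), Real.rpow_one]
  exact_mod_cast h

lemma coef_nonneg {L : ℕ} (hL : 1 ≤ L) {τ : ℝ} (hτ : 0 < τ) (D r : ℕ) : 0 ≤ coef L τ D r := by
  have := one_le_lam hL
  unfold coef
  positivity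

/-- The overhead of one level. -/
noncomputable def cost (L : ℕ) (τ : ℝ) : ℝ := L + lam L + Real.logb 2 (τ + 1) + 5

lemma next_bits {τ a : ℝ} (hτ : 0 < τ) (ha : 1 ≤ a) (m : ℕ) :
    ∃ b q : ℕ, 0 < b ∧ m ≤ q * b ∧ a * b ≤ τ + a ∧
      ((2 * q + Nat.clog 2 b : ℕ) : ℝ) ≤ 2 * a / τ * m + (Real.logb 2 (τ + 1) + 3) := by
  obtain ⟨b, hb1, hb2⟩ : ∃ b : ℕ, τ / a ≤ b ∧ (b : ℝ) < τ / a + 1 :=
    ⟨_, Nat.le_ceil _, Nat.ceil_lt_add_one (by positivity)⟩
  have hb0 : (0 : ℝ) < b := lt_of_lt_of_le (div_pos hτ (by linarith)) hb1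
  have hbn : 0 < b := by exact_mod_cast hb0
  have hab : a * b ≤ τ + a := by
    have := mul_le_mul_of_nonneg_left hb2.le (by linarith : (0 : ℝ) ≤ a)
    rw [mul_add, mul_div_cancel₀ _ (by linarith : a ≠ 0), mul_one] at this
    exact this
  refine ⟨b, m / b + 1, hbn, ?_, hab, ?_⟩
  · have := Nat.lt_div_mul_add (a := m) hbn
    rw [add_mul, one_mul]
    omega
  have hq : ((m / b : ℕ) : ℝ) ≤ a / τ * m := by
    refine Nat.cast_div_le.trans ?_
    rw [div_le_iff₀ hb0]
    rw [div_le_iff₀ (by linarith : 0 < a)] at hb1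
    have h := mul_le_mul_of_nonneg_left hb1 (div_nonneg (Nat.cast_nonneg m) hτ.le)
    rw [div_mul_cancel₀ _ hτ.ne'] at h
    exact h.trans (le_of_eq (by ring))
  have hlog : (Nat.clog 2 b : ℝ) ≤ Real.logb 2 (τ + 1) + 1 := by
    rw [← Real.natCeil_logb_natCast]
    refine (Nat.ceil_lt_add_one (Real.logb_nonneg (by norm_num) ?_)).le.trans ?_
    · exact_mod_cast hbn
    refine add_le_add ?_ le_rfl
    refine Real.logb_le_logb_of_le (by norm_num) (by exact_mod_cast hbn) ?_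
    have : τ / a ≤ τ := div_le_self hτ.le ha
    linarith
  rw [mul_div_assoc]
  push_cast
  linarith

/-- All levels from degree `D` to the last degree `L = D * 2 ^ r`. -/
lemma has_levels {k L : ℕ} (hL : 1 ≤ L) (hk : 3 * L + 2 ≤ k) {τ : ℝ} (hτ : 2 * (L : ℝ) ≤ τ)
    (hτl : 2 * lam L ≤ τ) :
    ∀ r D : ℕ, D * 2 ^ r = L → coef L τ D r ≤ 1 ∧ ∀ m : ℕ, ∃ c : ℝ, Has D k m c ∧
      c ≤ ((r : ℝ) + 1) * (τ + cost L τ) + coef L τ D r * m := by
  have hL' : (1 : ℝ) ≤ L := by exact_mod_cast hL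
  have hτ0 : 0 < τ := by linarith
  have hlam := one_le_lam hL
  have hlog : 0 ≤ Real.logb 2 (τ + 1) := Real.logb_nonneg (by norm_num) (by linarith)
  intro r
  induction r with
  | zero =>
    intro D hD
    obtain rfl : D = L := by simpa using hD
    refine ⟨?_, fun m => ?_⟩
    · rw [coef, Nat.choose_zero_succ, pow_zero, pow_zero, mul_one, mul_one, pow_one,
        div_le_one hτ0]
      exact hτl
    obtain ⟨b, q, hb, hm, hab, hnext⟩ := next_bits hτ0 hlam m
    refine ⟨_, has_last hb hm hk, ?_⟩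
    have e : coef D τ D 0 = 2 * lam D / τ := by simp [coef]
    rw [e, Nat.cast_zero, zero_add, one_mul, cost, mul_comm (b : ℝ)]
    change lam D * (b : ℝ) + 2 + _ ≤ _
    linarith
  | succ r ih =>
    intro D hD
    obtain ⟨h1, h2⟩ := ih (2 * D) (by rw [← hD, pow_succ]; ring)
    have hDpos : 0 < D := Nat.pos_of_ne_zero fun h => by rw [h, zero_mul] at hD; omega
    have hDL : 2 * D ≤ L := by
      rw [← hD, mul_comm 2 D]
      exact Nat.mul_le_mul_left _ (Nat.le_self_pow (by omega) 2)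
    have hDR : (D : ℝ) ≤ L := by exact_mod_cast (show D ≤ L by omega)
    have e : coef L τ D (r + 1) = 2 * D / τ * coef L τ (2 * D) r := by
      rw [coef, coef, Nat.choose_succ_succ' r 1, Nat.choose_one_right, pow_add]
      push_cast
      rw [show (2 * (2 * (D : ℝ))) ^ r = 2 ^ r * (2 * D) ^ r from mul_pow _ _ _]
      field_simp
      ring
    have hcn := coef_nonneg hL hτ0 (2 * D) r
    refine ⟨?_, fun m => ?_⟩
    · rw [e]
      refine mul_le_one₀ ?_ hcn h1
      rw [div_le_one hτ0]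
      linarith
    obtain ⟨b, q, hb, hm, hab, hnext⟩ := next_bits hτ0 (by exact_mod_cast hDpos : (1 : ℝ) ≤ D) m
    obtain ⟨c, hc, hle⟩ := h2 (2 * q + Nat.clog 2 b)
    refine ⟨_, has_middle hb hm (by omega) hc, ?_⟩
    have h3 := mul_le_mul_of_nonneg_left hnext hcn
    have h4 : coef L τ (2 * D) r * (Real.logb 2 (τ + 1) + 3) ≤ Real.logb 2 (τ + 1) + 3 :=
      mul_le_of_le_one_left (by linarith) h1
    have h5 : coef L τ (2 * D) r * (2 * D / τ * m) = coef L τ D (r + 1) * m := by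
      rw [e]; ring
    rw [mul_add, h5] at h3
    simp only [cost] at hle ⊢
    push_cast at hle h3 ⊢
    linarith

/-- The improved constant. -/
noncomputable def rate (n : ℕ) : ℝ :=
  n * (lam (2 ^ (n - 2)) * 2 ^ (1 + (n - 1).choose 2)) ^ (1 / (n : ℝ))

lemma choose_middle_lt {n : ℕ} (hn : 3 ≤ n) :
    (2 ^ (n - 2) + 1).choose ((2 ^ (n - 2) + 1) / 2) < 2 ^ 2 ^ (n - 2) := by
  obtain ⟨e, rfl⟩ : ∃ e, n = e + 3 := ⟨n - 3, by omega⟩
  simp only [show e + 3 - 2 = e + 1 by omega, pow_succ 2 e]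
  set h := 2 ^ e with hh
  have h1 : 1 ≤ h := Nat.one_le_two_pow
  rw [show (h * 2 + 1) / 2 = h by omega, mul_comm h 2, pow_mul]
  norm_num only
  rw [← Nat.sum_range_choose_halfway h, sum_range_succ]
  exact Nat.lt_add_of_pos_left
    (sum_pos (fun i hi => Nat.choose_pos (by have := mem_range.1 hi; omega))
      (nonempty_range_iff.2 (by omega)))

lemma rate_lt {n : ℕ} (hn : 3 ≤ n) : rate n < n * (2 : ℝ) ^ (((n : ℝ) - 1) / 2) := by
  set L := 2 ^ (n - 2) with hL
  have hlam : lam L < L := by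
    have h := choose_middle_lt hn
    rw [lam, Real.logb_lt_iff_lt_rpow (by norm_num) (by
      exact_mod_cast Nat.choose_pos (Nat.div_le_self _ _)), Real.rpow_natCast]
    exact_mod_cast h
  have h0 : 0 ≤ lam L := zero_le_one.trans (one_le_lam (hL ▸ Nat.one_le_two_pow))
  have hn0 : (0 : ℝ) < n := by exact_mod_cast (show 0 < n by omega)
  have key : lam L * 2 ^ (1 + (n - 1).choose 2) < ((2 : ℝ) ^ (((n : ℝ) - 1) / 2)) ^ (n : ℝ) := by
    rw [← Real.rpow_mul two_pos.le,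
      show ((n : ℝ) - 1) / 2 * n = ((n.choose 2 : ℕ) : ℝ) by rw [Nat.cast_choose_two]; ring,
      Real.rpow_natCast]
    have e : n.choose 2 = (n - 2) + (1 + (n - 1).choose 2) := by
      obtain ⟨j, rfl⟩ : ∃ j, n = j + 3 := ⟨n - 3, by omega⟩
      rw [Nat.choose_succ_succ' (j + 2) 1, Nat.choose_one_right]
      simp only [show j + 3 - 1 = j + 2 by omega, Nat.reduceAdd]
      omega
    rw [e, pow_add (2 : ℝ) (n - 2)]
    gcongr
    calc lam L < (L : ℝ) := hlam
      _ = _ := by rw [hL]; push_cast; rfl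
  rw [rate, ← hL]
  refine mul_lt_mul_of_pos_left ?_ hn0
  calc (lam L * 2 ^ (1 + (n - 1).choose 2)) ^ (1 / (n : ℝ))
      < (((2 : ℝ) ^ (((n : ℝ) - 1) / 2)) ^ (n : ℝ)) ^ (1 / (n : ℝ)) :=
        Real.rpow_lt_rpow (by positivity) key (by positivity)
    _ = _ := by
        rw [← Real.rpow_mul (by positivity), mul_one_div, div_self hn0.ne', Real.rpow_one]

lemma logb_le_sqrt {y : ℝ} (hy : 1 ≤ y) : Real.logb 2 y ≤ 4 * Real.sqrt y := by
  have h0 : 0 < y := by linarith
  have h2 : 1 / 2 ≤ Real.log 2 := by linarith [Real.log_two_gt_d9]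
  have h : Real.log y ≤ 2 * Real.sqrt y := by
    have := Real.log_le_sub_one_of_pos (Real.sqrt_pos.2 h0)
    rw [Real.log_sqrt h0.le] at this
    linarith [Real.sqrt_nonneg y]
  rw [Real.logb, div_le_iff₀ (by linarith)]
  have := mul_le_mul_of_nonneg_left h2 (by positivity : (0 : ℝ) ≤ 4 * Real.sqrt y)
  linarith

/-- Progression-free sets of `k` terms beat the constant of Rankin's construction. -/
theorem rankin_constant {n k : ℕ} (hn : 3 ≤ n) (hk : 3 * 2 ^ (n - 2) + 2 ≤ k) {ε : ℝ} (hε : 0 < ε) :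
    ∃ N₀ : ℕ, ∀ N : ℕ, N₀ ≤ N → ∃ A : Finset ℕ, A ⊆ Icc 1 N ∧
      (¬ ∃ a d : ℕ, 0 < d ∧ ∀ i < k, a + i * d ∈ A) ∧
      (N : ℝ) * (2 : ℝ) ^ (-((rate n + ε) * Real.logb 2 N ^ (1 / (n : ℝ)))) ≤ (A.card : ℝ) := by
  set D := 2 ^ (n - 2) with hD
  have hD1 : 1 ≤ D := Nat.one_le_two_pow
  have hn0 : (0 : ℝ) < n := by exact_mod_cast (show 0 < n by omega)
  have hlam := one_le_lam hD1
  set γ := (lam D * 2 ^ (1 + (n - 1).choose 2)) ^ (1 / (n : ℝ)) with hγ
  have hγ0 : 0 < γ := Real.rpow_pos_of_pos (by positivity) _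
  set K : ℝ := n * (D + lam D + 5) + 1 with hK
  set X : ℝ := 1 + (2 * D + 2 * lam D) / γ + 2 * K / ε + 64 * n ^ 2 * (γ + 1) / ε ^ 2 with hX
  have hev : ∀ᶠ N : ℕ in atTop, X ≤ Real.logb 2 N ^ (1 / (n : ℝ)) :=
    ((tendsto_rpow_atTop (by positivity)).comp
      ((Real.tendsto_logb_atTop (by norm_num)).comp
        tendsto_natCast_atTop_atTop)).eventually_ge_atTop X
  obtain ⟨N₀, hN₀⟩ := (hev.and (eventually_ge_atTop 2)).exists_forall_of_atTop
  refine ⟨N₀, fun N hN => ?_⟩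
  obtain ⟨hx, hN2⟩ := hN₀ N hN
  set L := Real.logb 2 N with hL
  set x := L ^ (1 / (n : ℝ)) with hxdef
  have hp1 : 0 ≤ (2 * D + 2 * lam D) / γ := by positivity
  have hp2 : 0 ≤ 2 * K / ε := by positivity
  have hp3 : 0 ≤ 64 * (n : ℝ) ^ 2 * (γ + 1) / ε ^ 2 := by positivity
  have hx1 : 1 ≤ x := by linarith
  set τ := γ * x with hτ
  have hNR : (2 : ℝ) ≤ N := by exact_mod_cast hN2
  have hL0 : 0 ≤ L := Real.logb_nonneg (by norm_num) (by linarith)
  have hτD : 2 * (D : ℝ) + 2 * lam D ≤ τ := by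
    have : (2 * D + 2 * lam D) / γ ≤ x := by linarith
    rw [div_le_iff₀ hγ0] at this
    linarith
  have hτ0 : 0 < τ := by positivity
  obtain ⟨-, hlev⟩ := has_levels hD1 hk (τ := τ) (by linarith) (by linarith) (n - 2) 1 (one_mul _)
  set m := Nat.log 2 N with hm
  obtain ⟨c, ⟨B, hB, hfree, hcard⟩, hc⟩ := hlev m
  have hmle : (m : ℝ) ≤ L := Real.natLog_le_logb _ _
  have hcoef : coef D τ 1 (n - 2) * L = τ := by
    have hτn : τ ^ n = lam D * 2 ^ (1 + (n - 1).choose 2) * L := by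
      rw [hτ, hγ, hxdef, mul_pow, one_div, Real.rpow_inv_natCast_pow (by positivity) (by omega),
        Real.rpow_inv_natCast_pow hL0 (by omega)]
    obtain ⟨j, rfl⟩ : ∃ j, n = j + 2 := ⟨n - 2, by omega⟩
    rw [show j + 2 - 1 = j + 1 by omega, Nat.choose_succ_succ' j 1, Nat.choose_one_right] at hτn
    rw [coef, show j + 2 - 2 = j by omega]
    simp only [Nat.cast_one, mul_one]
    rw [div_mul_eq_mul_div, div_eq_iff (pow_ne_zero _ hτ0.ne'),
      show τ * τ ^ (j + 1) = τ ^ (j + 2) by ring, hτn]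
    ring
  have hc2 : c + 1 ≤ (rate n + ε) * x := by
    have h1 : coef D τ 1 (n - 2) * m ≤ τ :=
      (mul_le_mul_of_nonneg_left hmle (coef_nonneg hD1 hτ0 _ _)).trans hcoef.le
    have hn2 : ((n - 2 : ℕ) : ℝ) + 1 = n - 1 := by
      rw [Nat.cast_sub (by omega)]
      push_cast
      ring
    rw [hn2] at hc
    have ho : 0 ≤ cost D τ := by
      have := Real.logb_nonneg (b := 2) (x := τ + 1) (by norm_num) (by linarith)
      unfold cost
      positivity
    have hlog := logb_le_sqrt (y := τ + 1) (by linarith)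
    have hsq : (n : ℝ) * (4 * Real.sqrt (τ + 1)) ≤ ε / 2 * x := by
      have h2 : 64 * (n : ℝ) ^ 2 * (γ + 1) / ε ^ 2 ≤ x := by linarith
      rw [div_le_iff₀ (by positivity)] at h2
      have h3 := mul_le_mul_of_nonneg_right h2 (by linarith : (0 : ℝ) ≤ x)
      have h4 : τ + 1 ≤ (γ + 1) * x := by linarith
      have h5 := mul_le_mul_of_nonneg_left h4 (by positivity : (0 : ℝ) ≤ 64 * (n : ℝ) ^ 2)
      refine le_of_pow_le_pow_left₀ two_ne_zero (by positivity) ?_
      rw [mul_pow, mul_pow, Real.sq_sqrt (by linarith), mul_pow, div_pow]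
      linarith
    have hKx : K ≤ ε / 2 * x := by
      have : 2 * K / ε ≤ x := by linarith
      rw [div_le_iff₀ hε] at this
      linarith
    have hr : rate n * x = n * τ := by rw [rate, ← hD, ← hγ, hτ]; ring
    have hov : (n : ℝ) * cost D τ ≤ n * (D + lam D + 5) + n * (4 * Real.sqrt (τ + 1)) := by
      rw [← mul_add]
      refine mul_le_mul_of_nonneg_left ?_ hn0.le
      unfold cost
      linarith
    linarith
  refine ⟨B.image fun v => (v + 1).toNat, ?_, ?_, ?_⟩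
  · intro a ha
    obtain ⟨v, hv, rfl⟩ := mem_image.1 ha
    obtain ⟨h1, h2⟩ := mem_Ico.1 (hB hv)
    have h3 : (2 : ℤ) ^ m ≤ N := by exact_mod_cast Nat.pow_log_le_self 2 (by omega : N ≠ 0)
    exact mem_Icc.2 ⟨by omega, by omega⟩
  · rintro ⟨a, d, hd, h⟩
    have hmem : ∀ i < k, (a : ℤ) + i * d - 1 ∈ B := by
      intro i hi
      obtain ⟨v, hv, hvv⟩ := mem_image.1 (h i hi)
      obtain ⟨h1, -⟩ := mem_Ico.1 (hB hv)
      have hcast := congrArg (fun z : ℕ => (z : ℤ)) hvv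
      simp only [Int.toNat_of_nonneg (show 0 ≤ v + 1 by omega)] at hcast
      push_cast at hcast
      rwa [show (a : ℤ) + i * d - 1 = v by linarith]
    have h1 := hfree (fun i => (a : ℤ) + i * d - 1) hmem
      (fun i _ => by simp only [dd]; push_cast; ring) 1 (by omega)
    simp at h1
    omega
  · rw [card_image_of_injOn fun v hv w hw h => by
      obtain ⟨h1, -⟩ := mem_Ico.1 (hB hv)
      obtain ⟨h2, -⟩ := mem_Ico.1 (hB hw)
      change (v + 1).toNat = (w + 1).toNat at h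
      omega]
    refine le_trans ?_ hcard
    have hN' : (N : ℝ) ≤ 2 * 2 ^ m := by
      have := (Nat.lt_pow_succ_log_self (show 1 < 2 by norm_num) N).le
      rw [← pow_succ']
      exact_mod_cast this
    calc (N : ℝ) * (2 : ℝ) ^ (-((rate n + ε) * x))
        ≤ 2 * 2 ^ m * (2 : ℝ) ^ (-(c + 1)) := by
          refine mul_le_mul hN' (Real.rpow_le_rpow_of_exponent_le (by norm_num) (by linarith))
            (by positivity) (by positivity)
      _ = 2 ^ m * ((2 : ℝ) ^ (1 : ℝ) * (2 : ℝ) ^ (-(c + 1))) := by rw [Real.rpow_one]; ring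
      _ = _ := by rw [← Real.rpow_add two_pos]; ring_nf

end Vale.Agent.P057.Rankin
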