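import Vale.Agent.P057.Rankin.Digits

/-!
One level of the construction: pigeonhole over the shift of the sums of squares and over
translations.
-/

namespace Vale.Agent.P057.Rankin

open Finset

/-- `Has D k m c`: some set free in degree `D` fills a share `2 ^ (-c)` of `[0, 2 ^ m)`. -/
def Has (D k m : ℕ) (c : ℝ) : Prop :=
  ∃ B : Finset ℤ, B ⊆ Ico 0 (2 ^ m) ∧ Free D k B ∧
    (2 : ℝ) ^ m * (2 : ℝ) ^ (-c) ≤ (B.card : ℝ)

/-- One level. -/
lemma count_step {D k b q m m' : ℕ} {A : ℤ} (hA : A < 2 ^ q) (hA0 : 0 ≤ A)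
    (hm : m ≤ q * b) (B' : Finset ℤ) (hB' : B' ⊆ Ico 0 (2 ^ m'))
    (hQ : (b : ℤ) * A ^ 2 < 2 ^ m')
    (hlevel : ∀ (t : ℤ) (x : ℕ → Fin b → ℤ), (∀ j < k, ∀ l, 0 ≤ x j l ∧ x j l ≤ A) →
      (∀ j < k, sumSq (x j) + t ∈ B') →
      (∀ i, i + D + 1 < k → dd (D + 1) (fun j => val (2 ^ q) (x j)) i = 0) →
      ∀ j < k, val (2 ^ q) (x j) = val (2 ^ q) (x 0)) :
    ∃ B : Finset ℤ, B ⊆ Ico 0 (2 ^ m) ∧ Free D k B ∧
      2 ^ m * (A + 1) ^ b * (B'.card : ℤ) ≤ (B.card : ℤ) * (2 * 2 ^ m') * (2 * (2 ^ q) ^ b) := by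
  set P : ℤ := 2 ^ q with hP
  set V := Fintype.piFinset fun _ : Fin b => Icc (0 : ℤ) A with hV
  have hmem : ∀ x ∈ V, ∀ l, 0 ≤ x l ∧ x l ≤ A := fun x hx l =>
    mem_Icc.1 (Fintype.mem_piFinset.1 hx l)
  have hVcard : (V.card : ℤ) = (A + 1) ^ b := by
    simp [hV, Fintype.card_piFinset, Int.toNat_of_nonneg (show 0 ≤ A + 1 by omega)]
  set M' : ℤ := 2 ^ m' with hM'
  have hM0 : 0 < M' := by positivity
  -- the shift of the sums of squares
  set T := Ico (-M') M' with hT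
  set S : ℤ → Finset (Fin b → ℤ) := fun t => V.filter fun x => sumSq x + t ∈ B' with hS
  have htot : (V.card : ℤ) * B'.card = ∑ t ∈ T, ((S t).card : ℤ) := by
    have hin : ∀ x ∈ V, (T.filter fun t => sumSq x + t ∈ B').card = B'.card := by
      intro x hx
      refine card_nbij' (fun t => sumSq x + t) (fun β => β - sumSq x) ?_ ?_ ?_ ?_
      · exact fun t ht => (mem_filter.1 ht).2
      · intro β hβ
        obtain ⟨h1, h2⟩ := mem_Ico.1 (hB' hβ)
        have h3 : sumSq x < M' := by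
          refine lt_of_le_of_lt ?_ hQ
          refine (sum_le_card_nsmul _ _ (A ^ 2) fun l _ => ?_).trans (le_of_eq (by simp))
          exact pow_le_pow_left₀ (hmem x hx l).1 (hmem x hx l).2 2
        have h4 : 0 ≤ sumSq x := sum_nonneg fun l _ => sq_nonneg _
        refine mem_filter.2 ⟨mem_Ico.2 ⟨?_, ?_⟩, ?_⟩
        · linarith
        · linarith
        · simpa using hβ
      · exact fun t _ => by ring
      · exact fun β _ => by ring
    rw [← Nat.cast_mul, ← Nat.cast_sum]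
    congr 1
    rw [← smul_eq_mul, ← sum_const, ← sum_congr rfl hin]
    simp only [card_filter, hS]
    exact sum_comm
  obtain ⟨t, -, ht⟩ := exists_le_of_sum_le (show T.Nonempty from nonempty_Ico.2 (by omega))
    (show ∑ _t ∈ T, (V.card : ℤ) * B'.card ≤ ∑ t ∈ T, ((S t).card : ℤ) * (2 * M') from by
      rw [sum_const, nsmul_eq_mul, ← sum_mul, ← htot, hT, Int.card_Ico,
        Int.toNat_of_nonneg (by omega)]
      linarith)
  -- translate into the interval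
  set K := (S t).image (val P) with hK
  have hKcard : K.card = (S t).card := card_image_of_injOn fun x hx y hy h =>
    val_inj hA (hmem x (mem_filter.1 hx).1) (hmem y (mem_filter.1 hy).1) h
  set M : ℤ := 2 ^ m with hM
  have hMP : M ≤ P ^ b := by
    rw [hM, hP, ← pow_mul]
    exact pow_le_pow_right₀ (by norm_num) hm
  have hPb : 0 < P ^ b := by positivity
  set U := Ico (-M + 1) (P ^ b) with hU
  have htot2 : (K.card : ℤ) * M = ∑ s ∈ U, ((K.filter fun v => v - s ∈ Ico 0 M).card : ℤ) := by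
    have hin : ∀ v ∈ K, (U.filter fun s => v - s ∈ Ico 0 M).card = M.toNat := by
      intro v hv
      obtain ⟨x, hx, rfl⟩ := mem_image.1 hv
      obtain ⟨h1, h2⟩ := val_nonneg_lt hA (hmem x (mem_filter.1 hx).1)
      have e : (U.filter fun s => val P x - s ∈ Ico 0 M) = Ico (val P x - M + 1) (val P x + 1) := by
        ext s
        simp only [hU, mem_filter, mem_Ico]
        constructor
        · rintro ⟨⟨_, _⟩, _, _⟩; omega
        · rintro ⟨_, _⟩; omega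
      rw [e, Int.card_Ico]
      congr 1
      ring
    have hMn : ((M.toNat : ℕ) : ℤ) = M := Int.toNat_of_nonneg (by positivity)
    rw [← hMn, ← Nat.cast_mul, ← Nat.cast_sum, hMn]
    congr 1
    rw [← smul_eq_mul, ← sum_const, ← sum_congr rfl hin]
    simp only [card_filter]
    exact sum_comm
  have hM1 : 0 < M := by positivity
  obtain ⟨s, -, hs⟩ := exists_le_of_sum_le (show U.Nonempty from nonempty_Ico.2 (by omega))
    (show ∑ _s ∈ U, (K.card : ℤ) * M ≤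
        ∑ s ∈ U, ((K.filter fun v => v - s ∈ Ico 0 M).card : ℤ) * (2 * P ^ b) from by
      rw [sum_const, nsmul_eq_mul, ← sum_mul, ← htot2, hU, Int.card_Ico,
        Int.toNat_of_nonneg (by omega), mul_comm]
      exact mul_le_mul_of_nonneg_left (by omega) (by positivity))
  refine ⟨(K.filter fun v => v - s ∈ Ico 0 M).image fun v => v - s, ?_, ?_, ?_⟩
  · intro v hv
    obtain ⟨w, hw, rfl⟩ := mem_image.1 hv
    exact (mem_filter.1 hw).2
  · intro v hv hdd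
    have hx : ∀ j, ∃ x : Fin b → ℤ, j < k → x ∈ S t ∧ val P x = v j + s := by
      intro j
      by_cases hj : j < k
      · obtain ⟨w, hw, hwv⟩ := mem_image.1 (hv j hj)
        obtain ⟨x, hxS, hxw⟩ := mem_image.1 (mem_filter.1 hw).1
        exact ⟨x, fun _ => ⟨hxS, by linarith⟩⟩
      · exact ⟨0, fun h => absurd h hj⟩
    choose x hx using hx
    intro j hj
    have hzero : ∀ i, i + D + 1 < k → dd (D + 1) (fun j => val P (x j)) i = 0 := fun i hi => by
      rw [dd_congr (g := fun j => v j + s) fun j _ hj => (hx j (by omega)).2, dd_add,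
        hdd i hi, dd_const _ _ _ (by omega), add_zero]
    have h := hlevel t x (fun j hj => hmem _ (mem_filter.1 (hx j hj).1).1)
      (fun j hj => (mem_filter.1 (hx j hj).1).2) hzero j hj
    rw [(hx j hj).2, (hx 0 (by omega)).2] at h
    linarith
  · rw [card_image_of_injective _ fun a b h => by simpa using h]
    calc M * (A + 1) ^ b * (B'.card : ℤ) = M * ((V.card : ℤ) * B'.card) := by rw [hVcard]; ring
      _ ≤ M * (((S t).card : ℤ) * (2 * M')) := mul_le_mul_of_nonneg_left ht hM1.le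
      _ = ((K.card : ℤ) * M) * (2 * M') := by rw [hKcard]; ring
      _ ≤ _ := by
        refine (mul_le_mul_of_nonneg_right hs (by positivity)).trans (le_of_eq ?_)
        ring

/-- The count of one level, as a share. -/
lemma share_of_count {b q m m' : ℕ} {A : ℤ} {W N N' c : ℝ} (hA0 : 0 ≤ A) (hW : 0 < W)
    (hAW : (2 : ℝ) ^ q ≤ ((A : ℝ) + 1) * W) (hN' : (2 : ℝ) ^ m' * 2 ^ (-c) ≤ N')
    (h : (2 : ℝ) ^ m * ((A : ℝ) + 1) ^ b * N' ≤ N * (2 * 2 ^ m') * (2 * ((2 : ℝ) ^ q) ^ b)) :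
    (2 : ℝ) ^ m * (2 : ℝ) ^ (-(b * Real.logb 2 W + 2 + c)) ≤ N := by
  have hA1 : (0 : ℝ) < A + 1 := by exact_mod_cast (show 0 < A + 1 by omega)
  have e : (2 : ℝ) ^ (-(b * Real.logb 2 W + 2 + c)) = W⁻¹ ^ b * (1 / 4) * (2 : ℝ) ^ (-c) := by
    rw [show -((b : ℝ) * Real.logb 2 W + 2 + c) = Real.logb 2 W * (-(b : ℝ)) + (-2 : ℝ) + (-c) by
      ring, Real.rpow_add two_pos, Real.rpow_add two_pos, Real.rpow_mul two_pos.le,
      Real.rpow_logb two_pos (by norm_num) hW, Real.rpow_neg hW.le, Real.rpow_natCast, inv_pow]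
    norm_num
  rw [e]
  refine le_of_mul_le_mul_right ?_ (by positivity : (0 : ℝ) < (2 * 2 ^ m') * (2 * ((2 : ℝ) ^ q) ^ b))
  calc (2 : ℝ) ^ m * (W⁻¹ ^ b * (1 / 4) * 2 ^ (-c)) * ((2 * 2 ^ m') * (2 * ((2 : ℝ) ^ q) ^ b))
      = 2 ^ m * (W⁻¹ * 2 ^ q) ^ b * (2 ^ m' * 2 ^ (-c)) := by rw [mul_pow]; ring
    _ ≤ 2 ^ m * ((A : ℝ) + 1) ^ b * N' := by
        have h1 : W⁻¹ * 2 ^ q ≤ (A : ℝ) + 1 := by
          rw [inv_mul_le_iff₀ hW]
          linarith
        gcongr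
    _ ≤ _ := by rw [← mul_assoc]; exact h

/-- The box for a given width. -/
lemma exists_box (q : ℕ) {W : ℕ} (hW : 0 < W) : ∃ A : ℤ, 0 ≤ A ∧ (W : ℤ) * A < 2 ^ q ∧
    A < 2 ^ q ∧ (2 : ℝ) ^ q ≤ ((A : ℝ) + 1) * W := by
  have hW' : (0 : ℤ) < W := by exact_mod_cast hW
  have hP : (1 : ℤ) ≤ 2 ^ q := one_le_pow₀ (by norm_num)
  refine ⟨(2 ^ q - 1) / W, Int.ediv_nonneg (by omega) hW'.le, ?_, ?_, ?_⟩
  · have := Int.mul_ediv_self_le (x := 2 ^ q - 1) hW'.ne'
    omega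
  · have := Int.ediv_le_self (b := (W : ℤ)) (show 0 ≤ (2 : ℤ) ^ q - 1 by omega)
    omega
  · have h := Int.lt_mul_ediv_self_add (x := 2 ^ q - 1) hW'
    have h' : (2 : ℤ) ^ q ≤ ((2 ^ q - 1) / W + 1) * W := by
      rw [add_mul, one_mul, mul_comm]
      omega
    exact_mod_cast h'

lemma sumSq_range {b q : ℕ} {A : ℤ} (hb : 0 < b) (hA0 : 0 ≤ A) (hA : A < 2 ^ q) :
    (b : ℤ) * A ^ 2 < 2 ^ (2 * q + Nat.clog 2 b) := by
  have h1 : (b : ℤ) ≤ 2 ^ Nat.clog 2 b := by exact_mod_cast Nat.le_pow_clog (by norm_num) b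
  have h2 : A ^ 2 < (2 ^ q) ^ 2 := pow_lt_pow_left₀ hA hA0 two_ne_zero
  rw [pow_add, show (2 : ℤ) ^ (2 * q) = (2 ^ q) ^ 2 by rw [← pow_mul, mul_comm]]
  calc (b : ℤ) * A ^ 2 < b * (2 ^ q) ^ 2 := by gcongr
    _ ≤ 2 ^ Nat.clog 2 b * (2 ^ q) ^ 2 := by gcongr
    _ = _ := mul_comm _ _

/-- A middle level. -/
lemma has_middle {D k b q m : ℕ} {c : ℝ} (hb : 0 < b) (hm : m ≤ q * b) (hk : 2 * D < k)
    (h : Has (2 * D) k (2 * q + Nat.clog 2 b) c) : Has D k m (D * b + 2 + c) := by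
  obtain ⟨B', hB', hfree, hcard⟩ := h
  obtain ⟨A, hA0, hWA, hA, hAW⟩ := exists_box q (show 0 < 2 ^ D by positivity)
  push_cast at hWA hAW
  obtain ⟨B, h1, h2, h3⟩ := count_step hA hA0 hm B' hB' (sumSq_range hb hA0 hA)
    fun t x hx hQ hv => middle_level hWA hk hfree t x hx hQ hv
  refine ⟨B, h1, h2, ?_⟩
  have h3' : (2 : ℝ) ^ m * ((A : ℝ) + 1) ^ b * (B'.card : ℝ) ≤
      (B.card : ℝ) * (2 * 2 ^ (2 * q + Nat.clog 2 b)) * (2 * ((2 : ℝ) ^ q) ^ b) := by
    exact_mod_cast h3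
  have h4 := share_of_count hA0 (by positivity) hAW hcard h3'
  rw [Real.logb_pow, Real.logb_self_eq_one (by norm_num), mul_one, mul_comm (b : ℝ)] at h4
  exact h4

/-- The last level. -/
lemma has_last {D k b q m : ℕ} (hb : 0 < b) (hm : m ≤ q * b) (hk : 3 * D + 2 ≤ k) :
    Has D k m (b * Real.logb 2 ((D + 1).choose ((D + 1) / 2)) + 2 +
      ((2 * q + Nat.clog 2 b : ℕ) : ℝ)) := by
  set W := (D + 1).choose ((D + 1) / 2) with hW
  have hW0 : 0 < W := Nat.choose_pos (Nat.div_le_self _ _)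
  obtain ⟨A, hA0, hWA, hA, hAW⟩ := exists_box q hW0
  have hone : ({0} : Finset ℤ) ⊆ Ico 0 (2 ^ (2 * q + Nat.clog 2 b)) := by
    simp
  obtain ⟨B, h1, h2, h3⟩ := count_step hA hA0 hm {0} hone (sumSq_range hb hA0 hA)
    fun t x hx hQ hv => last_level hWA hk (-t) x hx
      (fun j hj => eq_neg_of_add_eq_zero_left (mem_singleton.1 (hQ j hj))) hv
  refine ⟨B, h1, h2, ?_⟩
  have h3' : (2 : ℝ) ^ m * ((A : ℝ) + 1) ^ b * (({0} : Finset ℤ).card : ℝ) ≤
      (B.card : ℝ) * (2 * 2 ^ (2 * q + Nat.clog 2 b)) * (2 * ((2 : ℝ) ^ q) ^ b) := by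
    exact_mod_cast h3
  refine share_of_count hA0 (by exact_mod_cast hW0) hAW (le_of_eq ?_) h3'
  rw [card_singleton, Nat.cast_one, Real.rpow_neg two_pos.le, Real.rpow_natCast,
    mul_inv_cancel₀ (by positivity)]

end Vale.Agent.P057.Rankin
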