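import Vale.Agent.P057.Rankin.Seq

/-!
Digit vectors in a small box: a linear condition on numbers passes to every digit, and equal sums
of squares force constant sequences.
-/

namespace Vale.Agent.P057.Rankin

open Finset Polynomial

/-- No sequence of `k` terms in `B` with vanishing differences of order `D + 1` is nonconstant. -/
def Free (D k : ℕ) (B : Finset ℤ) : Prop :=
  ∀ v : ℕ → ℤ, (∀ j < k, v j ∈ B) → (∀ i, i + D + 1 < k → dd (D + 1) v i = 0) →
    ∀ j < k, v j = v 0

/-- The number with given digits. -/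
def val (P : ℤ) {b : ℕ} (x : Fin b → ℤ) : ℤ := ∑ l : Fin b, x l * P ^ (l : ℕ)

/-- The sum of the squares of the digits. -/
def sumSq {b : ℕ} (x : Fin b → ℤ) : ℤ := ∑ l : Fin b, x l ^ 2

lemma val_succ (P : ℤ) {b : ℕ} (x : Fin (b + 1) → ℤ) :
    val P x = x 0 + P * val P (fun l => x l.succ) := by
  rw [val, val, Fin.sum_univ_succ, mul_sum]
  simp only [Fin.val_zero, pow_zero, mul_one, Fin.val_succ, pow_succ]
  congr 1
  exact sum_congr rfl fun l _ => by ring

lemma val_inj {P A : ℤ} (hA : A < P) : ∀ {b : ℕ} {x y : Fin b → ℤ},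
    (∀ l, 0 ≤ x l ∧ x l ≤ A) → (∀ l, 0 ≤ y l ∧ y l ≤ A) → val P x = val P y → x = y
  | 0, x, y, _, _, _ => funext fun l => l.elim0
  | b + 1, x, y, hx, hy, h => by
    have hP : 0 < P := lt_of_le_of_lt ((hx 0).1.trans (hx 0).2) hA
    rw [val_succ, val_succ] at h
    have h0 : x 0 = y 0 := by
      have e : x 0 - y 0 = P * (val P (fun l => y l.succ) - val P (fun l => x l.succ)) := by
        linarith
      refine sub_eq_zero.1 (Int.eq_zero_of_abs_lt_dvd ⟨_, e⟩ ?_)
      rw [abs_lt]
      constructor <;> linarith [(hx 0).1, (hx 0).2, (hy 0).1, (hy 0).2]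
    rw [h0] at h
    have h1 := val_inj hA (fun l => hx l.succ) (fun l => hy l.succ)
      (mul_left_cancel₀ hP.ne' (add_left_cancel h))
    exact funext fun l => Fin.cases h0 (fun l => congrFun h1 l) l

lemma val_nonneg_lt {P A : ℤ} (hA : A < P) : ∀ {b : ℕ} {x : Fin b → ℤ},
    (∀ l, 0 ≤ x l ∧ x l ≤ A) → 0 ≤ val P x ∧ val P x < P ^ b
  | 0, x, _ => by simp [val]
  | b + 1, x, hx => by
    obtain ⟨h1, h2⟩ := val_nonneg_lt hA fun l => hx l.succ
    have hP : 0 ≤ P := (hx 0).1.trans ((hx 0).2.trans hA.le)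
    rw [val_succ]
    refine ⟨add_nonneg (hx 0).1 (mul_nonneg hP h1), ?_⟩
    have h3 := mul_le_mul_of_nonneg_left (Int.add_one_le_iff.2 h2) hP
    rw [pow_succ]
    linarith [(hx 0).2]

/-- A linear condition, small on the box, passes from numbers to digits. -/
lemma digits_vanish {P A : ℤ} {S : Set ℕ} (Φ : (ℕ → ℤ) →ₗ[ℤ] ℤ)
    (hloc : ∀ f g, (∀ j ∈ S, f j = g j) → Φ f = Φ g)
    (hsmall : ∀ f, (∀ j ∈ S, 0 ≤ f j ∧ f j ≤ A) → |Φ f| < P) :
    ∀ {b : ℕ} (x : ℕ → Fin b → ℤ), (∀ j ∈ S, ∀ l, 0 ≤ x j l ∧ x j l ≤ A) →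
      Φ (fun j => val P (x j)) = 0 → ∀ l, Φ (fun j => x j l) = 0
  | 0, _, _, _ => fun l => l.elim0
  | b + 1, x, hx, h => by
    set y : ℕ → ℤ := fun j => val P fun l => x j l.succ
    have e : Φ (fun j => x j 0) + P * Φ y = 0 := by
      rw [← h, ← smul_eq_mul, ← map_smul, ← map_add]
      refine hloc _ _ fun j _ => ?_
      simp [val_succ, y]
    have h0 : Φ (fun j => x j 0) = 0 :=
      Int.eq_zero_of_abs_lt_dvd ⟨-Φ y, by linarith⟩ (hsmall _ fun j hj => hx j hj 0)
    have hP : P ≠ 0 := by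
      have := (abs_nonneg _).trans_lt (hsmall _ fun j hj => hx j hj 0)
      omega
    have hy : Φ y = 0 := by
      rw [h0, zero_add] at e
      exact (mul_eq_zero.1 e).resolve_left hP
    have ih := digits_vanish Φ hloc hsmall (fun j l => x j l.succ) (fun j hj l => hx j hj l.succ) hy
    exact fun l => Fin.cases h0 ih l

/-- The iterated difference at a point, as a linear map. -/
def ddAt (n i : ℕ) : (ℕ → ℤ) →ₗ[ℤ] ℤ where
  toFun f := dd n f i
  map_add' f g := dd_add f g n i
  map_smul' a f := dd_mul a f n i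

/-- The sum of the steps between consecutive binomial coefficients of order `n`. -/
lemma choose_steps (n : ℕ) :
    ∑ l ∈ range n, |(n.choose (l + 1) : ℝ) - n.choose l| = 2 * n.choose (n / 2) - 2 := by
  set h := n / 2 with hh
  have up : ∀ m, m ≤ h → ∑ l ∈ range m, |(n.choose (l + 1) : ℝ) - n.choose l| =
      n.choose m - 1 := by
    intro m
    induction m with
    | zero => simp
    | succ m ih =>
      intro hm
      have hle : (n.choose m : ℝ) ≤ n.choose (m + 1) := by
        exact_mod_cast Nat.choose_le_succ_of_lt_half_left (show m < n / 2 by omega)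
      rw [sum_range_succ, ih (by omega), abs_of_nonneg (by linarith)]
      ring
  have down : ∀ j, h + j ≤ n → ∑ l ∈ range (h + j), |(n.choose (l + 1) : ℝ) - n.choose l| =
      2 * n.choose h - 1 - n.choose (h + j) := by
    intro j
    induction j with
    | zero =>
      intro _
      rw [add_zero, up h le_rfl]
      ring
    | succ j ih =>
      intro hj
      have hle : (n.choose (h + j + 1) : ℝ) ≤ n.choose (h + j) := by
        have hnat : n.choose (h + j + 1) ≤ n.choose (h + j) := by
          have h1 := Nat.choose_succ_right_eq n (h + j)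
          have h2 : n.choose (h + j) * (n - (h + j)) ≤ n.choose (h + j) * (h + j + 1) :=
            Nat.mul_le_mul_left _ (by omega)
          rw [← h1] at h2
          exact Nat.le_of_mul_le_mul_right h2 (Nat.succ_pos _)
        exact_mod_cast hnat
      rw [← add_assoc, sum_range_succ, ih (by omega), abs_of_nonpos (by linarith)]
      ring
  have := down (n - h) (by omega)
  rw [show h + (n - h) = n by omega, Nat.choose_self] at this
  rw [this]
  push_cast
  ring

/-- Differences of bounded sequences. -/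
lemma abs_dd_pair_le {A : ℤ} (f : ℕ → ℤ) {n i : ℕ}
    (hf : ∀ j ∈ Set.Icc i (i + n + 1), 0 ≤ f j ∧ f j ≤ A) :
    |dd (n + 1) f i| ≤ 2 ^ n * A ∧
      |dd n f i + dd n f (i + 1)| ≤ n.choose (n / 2) * A ∨ n = 0 := by
  rcases Nat.eq_zero_or_pos n with h0 | hn
  · exact Or.inr h0
  refine Or.inl ⟨?_, ?_⟩
  · have key : ∀ m i, (∀ j, i ≤ j → j ≤ i + m + 1 → 0 ≤ f j ∧ f j ≤ A) →
        |dd (m + 1) f i| ≤ 2 ^ m * A := by
      intro m
      induction m with
      | zero =>
        intro i h
        simp only [dd, pow_zero, one_mul]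
        have h1 := h i le_rfl (by omega)
        have h2 := h (i + 1) (by omega) (by omega)
        rw [abs_le]
        constructor <;> linarith
      | succ m ih =>
        intro i h
        have h1 := ih i fun j a b => h j a (by omega)
        have h2 := ih (i + 1) fun j a b => h j (by omega) (by omega)
        show |dd (m + 1) f (i + 1) - dd (m + 1) f i| ≤ 2 ^ (m + 1) * A
        rw [pow_succ]
        linarith [abs_sub (dd (m + 1) f (i + 1)) (dd (m + 1) f i)]
    exact key n i fun j a b => hf j ⟨a, b⟩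
  set c : ℕ → ℝ := fun l => (n.choose l : ℝ) with hc
  set h : ℕ → ℝ := fun l => (-1 : ℝ) ^ l * ((f (i + l) : ℝ) - A / 2) with hhdef
  have hb : ∀ l, l ≤ n + 1 → |h l| ≤ (A : ℝ) / 2 := fun l hl => by
    obtain ⟨h1, h2⟩ := hf (i + l) ⟨by omega, by omega⟩
    have h1' : (0 : ℝ) ≤ f (i + l) := by exact_mod_cast h1
    have h2' : (f (i + l) : ℝ) ≤ A := by exact_mod_cast h2
    rw [hhdef]
    simp only [abs_mul, abs_pow, abs_neg, abs_one, one_pow, one_mul]
    rw [abs_le]
    constructor <;> linarith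
  have hexp : ∀ x, ((dd n f x : ℤ) : ℝ) =
      ∑ l ∈ range (n + 1), (-1 : ℝ) ^ (n - l) * c l * ((f (x + l) : ℝ) - A / 2) := by
    intro x
    have e : ((dd n f x : ℤ) : ℝ) = dd n (fun j => (f j : ℝ) - A / 2) x := by
      rw [dd_sub, dd_cast, dd_const _ _ _ hn, sub_zero]
    rw [e, dd_eq_fwdDiff, fwdDiff_iter_eq_sum_shift]
    refine sum_congr rfl fun l _ => ?_
    simp only [smul_eq_mul, mul_one, zsmul_eq_mul, hc]
    push_cast
    ring
  have habel : ((dd n f i + dd n f (i + 1) : ℤ) : ℝ) =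
      (-1) ^ n * ∑ l ∈ range (n + 1), c l * (h l - h (l + 1)) := by
    push_cast
    rw [hexp, hexp, ← sum_add_distrib, mul_sum]
    refine sum_congr rfl fun l hl => ?_
    obtain ⟨d, rfl⟩ : ∃ d, n = l + d := ⟨n - l, by have := mem_range.1 hl; omega⟩
    have hsq : ((-1 : ℝ) ^ l) * (-1) ^ l = 1 := by rw [← mul_pow]; norm_num
    simp only [hhdef, Nat.add_sub_cancel_left, pow_add, pow_succ,
      show i + 1 + l = i + (l + 1) by omega]
    linear_combination (-(c l) * (-1 : ℝ) ^ d *
      (((f (i + l) : ℝ) - A / 2) + ((f (i + (l + 1)) : ℝ) - A / 2))) * hsq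
  have hsum : ∀ m, ∑ l ∈ range (m + 1), c l * (h l - h (l + 1)) =
      c 0 * h 0 - c m * h (m + 1) + ∑ l ∈ range m, (c (l + 1) - c l) * h (l + 1) := by
    intro m
    induction m with
    | zero => simp; ring
    | succ m ih => rw [sum_range_succ, ih, sum_range_succ (n := m)]; ring
  have hA : (0 : ℝ) ≤ A / 2 := (abs_nonneg _).trans (hb 0 (by omega))
  have hbound : |∑ l ∈ range (n + 1), c l * (h l - h (l + 1))| ≤ n.choose (n / 2) * (A : ℝ) := by
    rw [hsum]
    have b1 : |c 0 * h 0| ≤ A / 2 := by simpa [hc] using hb 0 (by omega)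
    have b2 : |c n * h (n + 1)| ≤ A / 2 := by simpa [hc] using hb (n + 1) le_rfl
    have b3 : |∑ l ∈ range n, (c (l + 1) - c l) * h (l + 1)| ≤
        (2 * n.choose (n / 2) - 2) * (A / 2 : ℝ) := by
      rw [← choose_steps, sum_mul]
      refine (abs_sum_le_sum_abs _ _).trans (sum_le_sum fun l hl => ?_)
      rw [abs_mul]
      exact mul_le_mul_of_nonneg_left (hb _ (by have := mem_range.1 hl; omega)) (abs_nonneg _)
    rw [abs_le] at b1 b2 b3 ⊢
    constructor <;> linarith [b1.1, b1.2, b2.1, b2.2, b3.1, b3.2]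
  have hfin : |((dd n f i + dd n f (i + 1) : ℤ) : ℝ)| ≤ n.choose (n / 2) * (A : ℝ) := by
    rw [habel, abs_mul, abs_pow, abs_neg, abs_one, one_pow, one_mul]
    exact hbound
  exact_mod_cast hfin

/-- Digit sequences of a middle level are polynomial, so constant when their squares are. -/
lemma middle_level {D k b : ℕ} {P A : ℤ} (hA : 2 ^ D * A < P) (hk : 2 * D < k)
    {B : Finset ℤ} (hB : Free (2 * D) k B) (t : ℤ) (x : ℕ → Fin b → ℤ)
    (hx : ∀ j < k, ∀ l, 0 ≤ x j l ∧ x j l ≤ A) (hQ : ∀ j < k, sumSq (x j) + t ∈ B)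
    (hv : ∀ i, i + D + 1 < k → dd (D + 1) (fun j => val P (x j)) i = 0) :
    ∀ j < k, val P (x j) = val P (x 0) := by
  have hd : ∀ i, i + D + 1 < k → ∀ l, dd (D + 1) (fun j => x j l) i = 0 := by
    intro i hi
    refine digits_vanish (ddAt (D + 1) i) (S := Set.Icc i (i + D + 1)) (A := A) (P := P)
      (fun f g h => dd_congr fun j a b => h j ⟨a, by omega⟩) (fun f hf => ?_) x
      (fun j hj => hx j (lt_of_le_of_lt hj.2 hi)) (hv i hi)
    rcases abs_dd_pair_le f hf with h | rfl
    · exact lt_of_le_of_lt h.1 hA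
    · have h1 := hf i ⟨le_rfl, by omega⟩
      have h2 := hf (i + 1) ⟨by omega, le_rfl⟩
      show |dd 1 f i| < P
      simp only [dd]
      rw [abs_lt]
      simp only [pow_zero, one_mul] at hA
      constructor <;> linarith
  choose p hpd hpe using fun l : Fin b => exists_poly (fun j => (x j l : ℝ)) fun i hi => by
    rw [dd_cast, hd i hi l, Int.cast_zero]
  set G := ∑ l, p l ^ 2 with hG
  have hGd : G.natDegree ≤ 2 * D := natDegree_sum_le_of_forall_le _ _ fun l _ =>
    natDegree_pow_le.trans (Nat.mul_le_mul_left 2 (hpd l))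
  have hGe : ∀ j < k, ((sumSq (x j) : ℤ) : ℝ) = G.eval (j : ℝ) := fun j hj => by
    simp only [sumSq, hG, eval_finsetSum, eval_pow, Int.cast_sum, Int.cast_pow]
    exact sum_congr rfl fun l _ => by rw [hpe l j hj]
  have hc : ∀ j < k, sumSq (x j) + t = sumSq (x 0) + t := by
    refine hB _ hQ fun i hi => ?_
    have h : ((dd (2 * D + 1) (fun j => sumSq (x j) + t) i : ℤ) : ℝ) = 0 := by
      rw [← dd_cast]
      simp only [Int.cast_add]
      rw [dd_add, dd_const _ _ _ (by omega), add_zero,
        dd_congr (g := fun j : ℕ => G.eval (j : ℝ)) fun j _ hj => hGe j (by omega)]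
      exact dd_eval_eq_zero (by omega) i
    exact_mod_cast h
  have h0 : G.natDegree = 0 := natDegree_eq_zero_of_ss (r := 0) (k := k)
    (F := fun j => ((sumSq (x j) : ℤ) : ℝ)) (c := ((sumSq (x 0) : ℤ) : ℝ))
    (fun j hj => by simp [add_right_cancel (hc j hj)]) (fun i hi => hGe i hi) (by omega)
  intro j hj
  refine congrArg (val P) (funext fun l => ?_)
  have hc0 := eq_C_of_natDegree_eq_zero
    (natDegree_eq_zero_of_sum_sq univ p h0 l (mem_univ l))
  have e1 := hpe l j hj
  have e2 := hpe l 0 (by omega)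
  rw [hc0, eval_C] at e1 e2
  exact_mod_cast e1.trans e2.symm

/-- Digit sequences of the last level are polynomial up to an alternating term, so two-periodic
when the sums of their squares are constant. -/
lemma last_level {D k b : ℕ} {P A : ℤ} (hA : ((D + 1).choose ((D + 1) / 2) : ℤ) * A < P)
    (hk : 3 * D + 2 ≤ k) (t : ℤ) (x : ℕ → Fin b → ℤ)
    (hx : ∀ j < k, ∀ l, 0 ≤ x j l ∧ x j l ≤ A) (hQ : ∀ j < k, sumSq (x j) = t)
    (hv : ∀ i, i + D + 1 < k → dd (D + 1) (fun j => val P (x j)) i = 0) :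
    ∀ j < k, val P (x j) = val P (x 0) := by
  have hpair : ∀ i, i + D + 2 < k → ∀ l,
      dd (D + 1) (fun j => x j l) i + dd (D + 1) (fun j => x j l) (i + 1) = 0 := by
    intro i hi
    refine digits_vanish (ddAt (D + 1) i + ddAt (D + 1) (i + 1))
      (S := Set.Icc i (i + (D + 1) + 1)) (A := A) (P := P) (fun f g h => ?_) (fun f hf => ?_) x
      (fun j hj => hx j (lt_of_le_of_lt hj.2 (by omega))) ?_
    · show dd (D + 1) f i + dd (D + 1) f (i + 1) = dd (D + 1) g i + dd (D + 1) g (i + 1)
      rw [dd_congr fun j a b => h j ⟨a, by omega⟩,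
        dd_congr (i := i + 1) fun j a b => h j ⟨by omega, by omega⟩]
    · rcases abs_dd_pair_le f hf with h | h
      · exact lt_of_le_of_lt h.2 hA
      · omega
    · show dd (D + 1) (fun j => val P (x j)) i + dd (D + 1) (fun j => val P (x j)) (i + 1) = 0
      rw [hv i (by omega), hv (i + 1) (by omega), add_zero]
  have halt : ∀ l i, i + D + 1 < k →
      dd (D + 1) (fun j => x j l) i = alt i * dd (D + 1) (fun j => x j l) 0 := by
    intro l i
    induction i with
    | zero => intro _; simp [alt]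
    | succ i ih =>
      intro hi
      rw [show (alt (i + 1) : ℤ) = -alt i by simp [alt, pow_succ], neg_mul, ← ih (by omega)]
      linarith [hpair i (by omega) l]
  set s : Fin b → ℝ := fun l =>
    ((dd (D + 1) (fun j => x j l) 0 : ℤ) : ℝ) / (-2) ^ (D + 1) with hs
  have hd : ∀ l i, i + D + 1 < k →
      dd (D + 1) (fun j => (x j l : ℝ) - s l * alt j) i = 0 := fun l i hi => by
    rw [dd_sub, dd_cast, dd_mul, dd_alt, halt l i hi, hs]
    simp only [alt, Int.cast_mul, Int.cast_pow, Int.cast_neg, Int.cast_one]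
    have : ((-2 : ℝ)) ^ (D + 1) ≠ 0 := pow_ne_zero _ (by norm_num)
    field_simp
    ring
  choose p hpd hpe using fun l : Fin b => exists_poly (fun j => (x j l : ℝ) - s l * alt j) (hd l)
  set G := ∑ l, p l ^ 2 with hG
  set Hc := ∑ l, C (2 * s l) * p l with hH
  have hGd : G.natDegree ≤ 2 * D := natDegree_sum_le_of_forall_le _ _ fun l _ =>
    natDegree_pow_le.trans (Nat.mul_le_mul_left 2 (hpd l))
  have hHd : Hc.natDegree ≤ D := natDegree_sum_le_of_forall_le _ _ fun l _ =>
    natDegree_C_mul_le _ _ |>.trans (hpd l)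
  have hexp : ∀ j < k,
      G.eval (j : ℝ) + alt j * Hc.eval (j : ℝ) = (t : ℝ) - ∑ l, s l ^ 2 := by
    intro j hj
    rw [← hQ j hj]
    simp only [sumSq, hG, hH, eval_finsetSum, eval_pow, eval_mul, eval_C, Int.cast_sum,
      Int.cast_pow, mul_sum]
    rw [← sum_add_distrib, ← sum_sub_distrib]
    refine sum_congr rfl fun l _ => ?_
    rw [← hpe l j hj]
    have hsq : (alt j : ℝ) * alt j = 1 := by simp [alt, ← mul_pow]
    linear_combination (-(s l) ^ 2) * hsq
  have h0 : G.natDegree = 0 := by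
    refine natDegree_eq_zero_of_ss (r := D + 1) (k := k) hexp (fun i _ => ?_) (by omega)
    rw [ss_add, ss_alt_mul, dd_eval_eq_zero (by omega), mul_zero, add_zero]
  have hper : ∀ j, j + 2 < k → val P (x (j + 2)) = val P (x j) := by
    intro j hj
    refine congrArg (val P) (funext fun l => ?_)
    have hc0 := eq_C_of_natDegree_eq_zero
      (natDegree_eq_zero_of_sum_sq univ p h0 l (mem_univ l))
    have e1 := hpe l (j + 2) hj
    have e2 := hpe l j (by omega)
    rw [hc0, eval_C] at e1 e2
    have h2 : (alt (j + 2) : ℝ) = alt j := by simp [alt, pow_add]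
    rw [h2] at e1
    have : ((x (j + 2) l : ℤ) : ℝ) = x j l := by linarith
    exact_mod_cast this
  have hev : ∀ m, 2 * m < k → val P (x (2 * m)) = val P (x 0) := by
    intro m
    induction m with
    | zero => exact fun _ => rfl
    | succ m ih => intro hm; exact (hper (2 * m) (by omega)).trans (ih (by omega))
  obtain ⟨r, hrd, hre⟩ := exists_poly (fun j => ((val P (x j) : ℤ) : ℝ)) fun i hi => by
    rw [dd_cast, hv i hi, Int.cast_zero]
  have hr : r - C ((val P (x 0) : ℤ) : ℝ) = 0 := by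
    refine eq_zero_of_natDegree_lt_card_of_eval_eq_zero' _
      ((range (D + 1)).image fun m : ℕ => ((2 * m : ℕ) : ℝ)) (fun z hz => ?_) ?_
    · obtain ⟨m, hm, rfl⟩ := mem_image.1 hz
      have := mem_range.1 hm
      rw [eval_sub, eval_C, ← hre _ (by omega), hev m (by omega), sub_self]
    · rw [card_image_of_injective _ fun a b h => Nat.eq_of_mul_eq_mul_left two_pos
        (Nat.cast_injective h), card_range]
      exact Nat.lt_succ_of_le (natDegree_sub_C.trans_le hrd)
  intro j hj
  have := hre j hj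
  rw [sub_eq_zero.1 hr, eval_C] at this
  exact_mod_cast this

end Vale.Agent.P057.Rankin
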