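import Mathlib

/-!
Differences and neighbour sums of sequences, and the positivity used for sums of squares.
-/

namespace Vale.Agent.P057.Rankin

open Finset Polynomial

variable {R : Type*} [CommRing R]

/-- The iterated forward difference. -/
def dd : ℕ → (ℕ → R) → ℕ → R
  | 0, f, i => f i
  | n + 1, f, i => dd n f (i + 1) - dd n f i

/-- The iterated sum of neighbours. -/
def ss : ℕ → (ℕ → R) → ℕ → R
  | 0, f, i => f i
  | n + 1, f, i => ss n f (i + 1) + ss n f i

/-- The alternating sequence. -/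
def alt (i : ℕ) : R := (-1) ^ i

lemma dd_congr {f g : ℕ → R} : ∀ {n i : ℕ}, (∀ j, i ≤ j → j ≤ i + n → f j = g j) →
    dd n f i = dd n g i
  | 0, i, h => h i le_rfl le_rfl
  | n + 1, i, h => by
    simp only [dd]
    rw [dd_congr fun j hj hj' => h j (by omega) (by omega),
      dd_congr (i := i) fun j hj hj' => h j hj (by omega)]

lemma ss_congr {f g : ℕ → R} : ∀ {n i : ℕ}, (∀ j, i ≤ j → j ≤ i + n → f j = g j) →
    ss n f i = ss n g i
  | 0, i, h => h i le_rfl le_rfl
  | n + 1, i, h => by
    simp only [ss]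
    rw [ss_congr fun j hj hj' => h j (by omega) (by omega),
      ss_congr (i := i) fun j hj hj' => h j hj (by omega)]

lemma dd_add (f g : ℕ → R) : ∀ n i, dd n (fun j => f j + g j) i = dd n f i + dd n g i
  | 0, _ => rfl
  | n + 1, i => by simp only [dd, dd_add f g n]; ring

lemma dd_sub (f g : ℕ → R) : ∀ n i, dd n (fun j => f j - g j) i = dd n f i - dd n g i
  | 0, _ => rfl
  | n + 1, i => by simp only [dd, dd_sub f g n]; ring

lemma dd_mul (a : R) (f : ℕ → R) : ∀ n i, dd n (fun j => a * f j) i = a * dd n f i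
  | 0, _ => rfl
  | n + 1, i => by simp only [dd, dd_mul a f n]; ring

lemma dd_const (a : R) : ∀ n i, 0 < n → dd n (fun _ => a) i = 0
  | 0, _, h => absurd h (lt_irrefl 0)
  | 1, _, _ => by simp [dd]
  | n + 2, i, _ => by
    simp only [dd] at *
    have h := dd_const a (n + 1)
    simp only [dd] at h
    rw [h (i + 1) (by omega), h i (by omega), sub_zero]

lemma dd_alt : ∀ n i, dd n (alt : ℕ → R) i = (-2) ^ n * alt i
  | 0, i => by simp [dd]
  | n + 1, i => by simp only [dd, dd_alt n, alt]; ring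

lemma dd_cast (f : ℕ → ℤ) : ∀ n i, dd n (fun j => (f j : ℝ)) i = (dd n f i : ℤ)
  | 0, _ => rfl
  | n + 1, i => by simp only [dd, dd_cast f n, Int.cast_sub]

lemma ss_add (f g : ℕ → R) : ∀ n i, ss n (fun j => f j + g j) i = ss n f i + ss n g i
  | 0, _ => rfl
  | n + 1, i => by simp only [ss, ss_add f g n]; ring

lemma ss_alt_mul (f : ℕ → R) :
    ∀ n i, ss n (fun j => alt j * f j) i = alt (i + n) * dd n f i
  | 0, _ => rfl
  | n + 1, i => by
    simp only [ss]
    rw [ss_alt_mul f n, ss_alt_mul f n]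
    simp only [dd, alt]
    ring

lemma ss_const (a : R) : ∀ n i, ss n (fun _ => a) i = 2 ^ n * a
  | 0, _ => by simp [ss]
  | n + 1, i => by simp only [ss, ss_const a n]; ring

lemma dd_ss (f : ℕ → R) : ∀ n m i, dd m (ss n f) i = ss n (dd m f) i
  | 0, m, i => rfl
  | n + 1, m, i => by
    have h : dd m (ss (n + 1) f) i = dd m (ss n f) (i + 1) + dd m (ss n f) i := by
      induction m generalizing i with
      | zero => rfl
      | succ m ih => simp only [dd, ih]; ring
    rw [h, dd_ss f n, dd_ss f n]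
    rfl

lemma dd_eq_fwdDiff (f : ℕ → R) : ∀ n i, dd n f i = (fwdDiff 1)^[n] f i
  | 0, _ => rfl
  | n + 1, i => by
    simp only [dd, dd_eq_fwdDiff f n, Function.iterate_succ_apply', fwdDiff]

lemma dd_eval (p : ℝ[X]) : ∀ n i, dd n (fun j : ℕ => p.eval (j : ℝ)) i =
    (fwdDiff (1 : ℝ))^[n] (fun x => p.eval x) (i : ℝ)
  | 0, _ => rfl
  | n + 1, i => by
    simp only [dd, dd_eval p n, Function.iterate_succ_apply', fwdDiff, Nat.cast_succ]

lemma dd_eval_eq_zero {p : ℝ[X]} {n : ℕ} (h : p.natDegree < n) (i : ℕ) :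
    dd n (fun j : ℕ => p.eval (j : ℝ)) i = 0 := by
  rw [dd_eval, fwdDiff_iter_eq_zero_of_degree_lt h]
  rfl

/-- A sequence with vanishing differences agrees with a polynomial. -/
lemma exists_poly {k D : ℕ} (f : ℕ → ℝ) (hf : ∀ i, i + D + 1 < k → dd (D + 1) f i = 0) :
    ∃ p : ℝ[X], p.natDegree ≤ D ∧ ∀ i < k, f i = p.eval (i : ℝ) := by
  set p := Lagrange.interpolate (range (D + 1)) (fun i : ℕ => (i : ℝ)) f with hp
  have hinj : Set.InjOn (fun i : ℕ => (i : ℝ)) (range (D + 1)) := Nat.cast_injective.injOn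
  have hdeg : p.natDegree ≤ D := by
    have h := Lagrange.degree_interpolate_lt f hinj
    rw [card_range] at h
    rw [natDegree_le_iff_degree_le]
    exact Order.le_of_lt_succ (by exact_mod_cast h)
  refine ⟨p, hdeg, fun i => ?_⟩
  induction i using Nat.strong_induction_on with
  | _ i ih =>
    intro hi
    by_cases h : i ≤ D
    · exact (Lagrange.eval_interpolate_at_node f hinj (mem_range.2 (by omega))).symm
    obtain ⟨j, rfl⟩ : ∃ j, i = j + (D + 1) := ⟨i - (D + 1), by omega⟩
    set g : ℕ → ℝ := fun x => f x - p.eval (x : ℝ) with hg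
    have h0 : dd (D + 1) g j = 0 := by
      rw [hg, dd_sub, hf j (by omega), dd_eval_eq_zero (by omega), sub_zero]
    have h1 : ∀ n x, (∀ y, x ≤ y → y < x + n → g y = 0) → dd n g x = g (x + n) := by
      intro n
      induction n with
      | zero => exact fun x _ => rfl
      | succ n ihn =>
        intro x hx
        have hz : dd n g x = 0 := by
          rw [ihn x fun y a b => hx y a (by omega)]
          exact hx _ (by omega) (by omega)
        simp only [dd, hz, sub_zero]
        rw [ihn (x + 1) fun y a b => hx y (by omega) (by omega)]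
        congr 1
        omega
    rw [h1 _ _ fun y a b => by simp only [hg]; rw [ih y (by omega) (by omega), sub_self]] at h0
    exact sub_eq_zero.1 h0

/-- If neighbour sums of a polynomial are constant on enough points, it is constant. -/
lemma natDegree_eq_zero_of_ss {G : ℝ[X]} {r k : ℕ} {F : ℕ → ℝ} {c : ℝ} (hF : ∀ j < k, F j = c)
    (hFG : ∀ i, i + r < k → ss r F i = ss r (fun j : ℕ => G.eval (j : ℝ)) i)
    (hk : G.natDegree + r < k) : G.natDegree = 0 := by
  by_contra hm
  set m := G.natDegree with hmdef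
  have h1 : dd m (ss r fun j : ℕ => G.eval (j : ℝ)) 0 =
      2 ^ r * (G.leadingCoeff * m.factorial) := by
    rw [dd_ss, ss_congr (g := fun _ => G.leadingCoeff * m.factorial), ss_const]
    intro j _ _
    rw [dd_eval, hmdef, fwdDiff_iter_degree_eq_factorial]
    simp
  have h2 : dd m (ss r fun j : ℕ => G.eval (j : ℝ)) 0 = 0 := by
    rw [dd_congr (g := fun _ => 2 ^ r * c), dd_const _ _ _ (Nat.pos_of_ne_zero hm)]
    intro j _ hj
    rw [← hFG j (by omega), ss_congr (g := fun _ => c) fun x _ hx => hF x (by omega), ss_const]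
  rw [h2, eq_comm, mul_eq_zero, mul_eq_zero] at h1
  rcases h1 with h | h | h
  · exact absurd h (by positivity)
  · exact hm (by rw [hmdef, leadingCoeff_eq_zero.1 h, natDegree_zero])
  · exact Nat.factorial_ne_zero m (by exact_mod_cast h)

/-- A sum of squares is constant only if all of them are. -/
lemma natDegree_eq_zero_of_sum_sq {ι : Type*} (s : Finset ι) (p : ι → ℝ[X])
    (h : (∑ l ∈ s, p l ^ 2).natDegree = 0) : ∀ l ∈ s, (p l).natDegree = 0 := by
  intro l hl
  by_contra hne
  set m := s.sup fun i => (p i).natDegree with hm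
  have hle : ∀ i ∈ s, (p i).natDegree ≤ m := fun i hi => le_sup (f := fun i => (p i).natDegree) hi
  have hm0 : 0 < m := lt_of_lt_of_le (Nat.pos_of_ne_zero hne) (hle l hl)
  have hcoef : (∑ i ∈ s, p i ^ 2).coeff (m + m) = ∑ i ∈ s, (p i).coeff m ^ 2 := by
    rw [finsetSum_coeff]
    exact sum_congr rfl fun i hi => by
      rw [sq, sq, coeff_mul_add_eq_of_natDegree_le (hle i hi) (hle i hi)]
  rw [coeff_eq_zero_of_natDegree_lt (by omega)] at hcoef
  obtain ⟨i, hi, hmax⟩ := exists_mem_eq_sup s ⟨l, hl⟩ fun i => (p i).natDegree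
  have h2 := (sum_eq_zero_iff_of_nonneg fun i _ => sq_nonneg ((p i).coeff m)).1 hcoef.symm i hi
  have hp : p i ≠ 0 := fun h0 => by
    rw [← hm] at hmax
    simp [h0] at hmax
    omega
  refine leadingCoeff_ne_zero.2 hp ?_
  rw [leadingCoeff, ← hmax, ← hm]
  exact pow_eq_zero_iff two_ne_zero |>.1 h2

end Vale.Agent.P057.Rankin
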